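import Vale.Agent.P291.T.QF

set_option autoImplicit false

/-! A second presentation of the kernel of the Kirwan map, without `ħ`. -/

namespace Vale.Agent.P291.Q

variable (D : QData)

/-- The set of values `ev g` of the `act`-invariant `g` in `C` for which `g · ∏ α` is in the ideal
generated by the products of all the weights `χ` of `N` with `⟨χ, l⟩ ≠ 0`, for the nonzero
cocharacters `l`. -/
def MP {C K : Type} [CommRing C] (X : B D → C) (t : Fl D → C)
    (act : W D → C → C) (ev : C → K) : Set K :=
  {z | ∃ g, (∀ σ, act σ g = g) ∧ g * disc D X id ∈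
    cut D X t (fun χ c => if c = 0 then 1 else χ) (fun l => l ≠ 0) ∧ ev g = z}

/-- the values at `F` of the elements of `MP` for the universal flavor parameters -/
noncomputable def kerM {K : Type} [Field K] [Algebra ℂ K] (x : B D → K) (y : Fin D.rk → K) :
    Set K :=
  let X : B D ⊕ (Fl D ⊕ Fin D.rk) → MvPolynomial (B D ⊕ (Fl D ⊕ Fin D.rk)) ℂ := MvPolynomial.X
  MP D (fun b => X (.inl b)) (fun a => X (.inr (.inl a)))
    (fun σ => val (Sum.elim (fun b => X (.inl (pm D σ b))) fun c => X (.inr c)))
    (val (Sum.elim x (Sum.elim (fl D y) y)))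

end Vale.Agent.P291.Q
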