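import Vale.Agent.P291.H827.Defs
import Vale.Agent.P291.Bdl.B2
import Vale.Agent.P291.RG.Fin

set_option autoImplicit false

/-! Every character: the fixed locus, and the presentation without `ħ`. -/

namespace Vale.Agent.P291.Q

open MvPolynomial

variable (D : QData)

lemma val_aeval {T C : Type} [CommRing C] [Algebra ℂ C] (p : T → C) (f : MvPolynomial T ℂ) :
    val p f = aeval p f := rfl

lemma map_val {T C C' : Type} [CommRing C] [Algebra ℂ C] [CommRing C'] [Algebra ℂ C']
    (F : C →ₐ[ℂ] C') (p : T → C) (f : MvPolynomial T ℂ) : F (val p f) = val (F ∘ p) f := by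
  rw [val_aeval, val_aeval]
  have h := MvPolynomial.comp_aeval (R := ℂ) p F
  exact DFunLike.congr_fun h f

lemma wts_map {C C' : Type} [CommRing C] [CommRing C'] (F : C →+* C') (x : B D → C)
    (t : Fl D → C) (l : B D → ℤ) :
    F (wts D x t (fun χ c => if c = 0 then 1 else χ) l) =
      wts D (F ∘ x) (F ∘ t) (fun χ c => if c = 0 then 1 else χ) l := by
  unfold wts
  rw [map_mul, map_prod, map_prod]
  congr 1
  · refine Finset.prod_congr rfl fun a _ => ?_
    rw [map_prod]
    refine Finset.prod_congr rfl fun r _ => ?_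
    rw [map_prod]
    refine Finset.prod_congr rfl fun s _ => ?_
    dsimp only
    split_ifs
    · exact map_one F
    · simp only [map_add, map_sub, Function.comp_apply]
  · refine Finset.prod_congr rfl fun i _ => ?_
    rw [map_prod]
    refine Finset.prod_congr rfl fun r _ => ?_
    rw [map_prod]
    refine Finset.prod_congr rfl fun k _ => ?_
    dsimp only
    split_ifs
    · exact map_one F
    · simp only [map_sub, Function.comp_apply]

lemma disc_map {C C' : Type} [CommRing C] [CommRing C'] (F : C →+* C') (x : B D → C) :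
    F (disc D x id) = disc D (F ∘ x) id := by
  unfold disc rts
  rw [map_prod]
  refine Finset.prod_congr rfl fun i _ => ?_
  rw [map_prod]
  refine Finset.prod_congr rfl fun r _ => ?_
  rw [map_prod]
  refine Finset.prod_congr rfl fun s _ => ?_
  dsimp only
  split_ifs
  · exact map_one F
  · simp only [id, map_sub, Function.comp_apply]

lemma cut_map {C C' : Type} [CommRing C] [CommRing C'] (F : C →+* C') (x : B D → C)
    (t : Fl D → C) {g : C} (h : g ∈ cut D x t (fun χ c => if c = 0 then 1 else χ) (fun l => l ≠ 0)) :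
    F g ∈ cut D (F ∘ x) (F ∘ t) (fun χ c => if c = 0 then 1 else χ) (fun l => l ≠ 0) := by
  have h1 : cut D x t (fun χ c => if c = 0 then 1 else χ) (fun l => l ≠ 0) ≤
      (cut D (F ∘ x) (F ∘ t) (fun χ c => if c = 0 then 1 else χ) (fun l => l ≠ 0)).comap F := by
    refine Ideal.span_le.2 ?_
    rintro _ ⟨l, hl, rfl⟩
    rw [SetLike.mem_coe, Ideal.mem_comap, wts_map]
    exact Ideal.subset_span ⟨l, hl, rfl⟩
  exact h1 h

section
variable {K L : Type} [Field K] [Algebra ℂ K] [CommRing L] [Algebra K L]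
  (x : B D → K) (y : Fin D.rk → K) (u : (B D → ℤ) → L)

/-- `kerJ` in the definitions of `T/QF.lean` -/
lemma kerJ_eq : Vale.Agent.P291.H.M.kerJ (tG D) x y = {z | ∃ g : PT D,
    (∀ σ, val (Sum.elim (fun b => (MvPolynomial.X (.inl (pm D σ b)) : PT D))
      fun c => MvPolynomial.X (.inr c)) g = g) ∧
    g * disc D (fun b => xT D (.inl b)) id ∈
      cut D (fun b => xT D (.inl b)) (fun a => xT D (.inr (.inl a)))
        (fun χ c => if c = 0 then 1 else χ) (fun l => l ≠ 0) ∧
    val (Sum.elim x (Sum.elim (fl D y) (Sum.elim 0 y))) g = z} := by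
  have hI : Vale.Agent.P291.H.M.cutI (Vale.Agent.P291.H.M.wX (tG D)) =
      cut D (fun b => xT D (.inl b)) (fun a => xT D (.inr (.inl a)))
        (fun χ c => if c = 0 then 1 else χ) (fun l => l ≠ 0) :=
    Vale.Agent.P291.H.M.cutI_eq (tG D)
  ext z
  constructor
  · rintro ⟨g, h1, h2, h3⟩
    refine ⟨g, fun σ => ?_, ?_, ?_⟩
    · rw [act_eq]
      exact h1 σ
    · rw [hI, ← disc0_eq] at h2
      exact h2
    · exact h3
  · rintro ⟨g, h1, h2, h3⟩
    refine ⟨g, fun σ => ?_, ?_, ?_⟩
    · have := h1 σ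
      rw [act_eq] at this
      exact this
    · rw [hI, ← disc0_eq]
      exact h2
    · exact h3

/-- the polynomial ring without `ħ` -/
abbrev AT : Type := MvPolynomial (B D ⊕ (Fl D ⊕ Fin D.rk)) ℂ

/-- forget `ħ` -/
noncomputable def piT : PT D →ₐ[ℂ] AT D :=
  aeval (Sum.elim (fun b => X (.inl b)) (Sum.elim (fun a => X (.inr (.inl a)))
    (Sum.elim (fun _ => 0) fun j => X (.inr (.inr j)))))

/-- the inclusion -/
noncomputable def ioT : AT D →ₐ[ℂ] PT D :=
  aeval (Sum.elim (fun b => X (.inl b)) (Sum.elim (fun a => X (.inr (.inl a)))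
    fun j => X (.inr (.inr (.inr j)))))

lemma kerM_def : kerM D x y = {z | ∃ g : AT D,
    (∀ σ, val (Sum.elim (fun b => (MvPolynomial.X (.inl (pm D σ b)) : AT D))
      fun c => MvPolynomial.X (.inr c)) g = g) ∧
    g * disc D (fun b => (X (.inl b) : AT D)) id ∈
      cut D (fun b => (X (.inl b) : AT D)) (fun a => X (.inr (.inl a)))
        (fun χ c => if c = 0 then 1 else χ) (fun l => l ≠ 0) ∧
    val (Sum.elim x (Sum.elim (fl D y) y)) g = z} := rfl

lemma piT_act (σ : W D) (g : PT D) :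
    piT D (val (Sum.elim (fun b => (MvPolynomial.X (.inl (pm D σ b)) : PT D))
      fun c => MvPolynomial.X (.inr c)) g) =
    val (Sum.elim (fun b => (MvPolynomial.X (.inl (pm D σ b)) : AT D))
      fun c => MvPolynomial.X (.inr c)) (piT D g) := by
  have h : (piT D).comp (aeval (Sum.elim (fun b => (MvPolynomial.X (.inl (pm D σ b)) : PT D))
      fun c => MvPolynomial.X (.inr c))) =
      (aeval (Sum.elim (fun b => (MvPolynomial.X (.inl (pm D σ b)) : AT D))
      fun c => MvPolynomial.X (.inr c))).comp (piT D) := by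
    apply MvPolynomial.algHom_ext
    rintro (b | a | h | j)
    all_goals simp only [piT, AlgHom.comp_apply, aeval_X, Sum.elim_inl, Sum.elim_inr, map_zero]
  exact DFunLike.congr_fun h g

lemma ioT_act (σ : W D) (g : AT D) :
    ioT D (val (Sum.elim (fun b => (MvPolynomial.X (.inl (pm D σ b)) : AT D))
      fun c => MvPolynomial.X (.inr c)) g) =
    val (Sum.elim (fun b => (MvPolynomial.X (.inl (pm D σ b)) : PT D))
      fun c => MvPolynomial.X (.inr c)) (ioT D g) := by
  have h : (ioT D).comp (aeval (Sum.elim (fun b => (MvPolynomial.X (.inl (pm D σ b)) : AT D))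
      fun c => MvPolynomial.X (.inr c))) =
      (aeval (Sum.elim (fun b => (MvPolynomial.X (.inl (pm D σ b)) : PT D))
      fun c => MvPolynomial.X (.inr c))).comp (ioT D) := by
    apply MvPolynomial.algHom_ext
    rintro (b | a | j)
    all_goals simp only [ioT, AlgHom.comp_apply, aeval_X, Sum.elim_inl, Sum.elim_inr]
  exact DFunLike.congr_fun h g

lemma piT_val (g : PT D) : val (Sum.elim x (Sum.elim (fl D y) (Sum.elim 0 y))) g =
    val (Sum.elim x (Sum.elim (fl D y) y)) (piT D g) := by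
  have h : (aeval (Sum.elim x (Sum.elim (fl D y) (Sum.elim 0 y))) : PT D →ₐ[ℂ] K) =
      (aeval (Sum.elim x (Sum.elim (fl D y) y))).comp (piT D) := by
    apply MvPolynomial.algHom_ext
    rintro (b | a | h | j)
    all_goals simp only [piT, AlgHom.comp_apply, aeval_X, Sum.elim_inl, Sum.elim_inr, map_zero,
      Pi.zero_apply]
  exact DFunLike.congr_fun h g

lemma ioT_val (g : AT D) : val (Sum.elim x (Sum.elim (fl D y) (Sum.elim 0 y))) (ioT D g) =
    val (Sum.elim x (Sum.elim (fl D y) y)) g := by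
  have h : (aeval (Sum.elim x (Sum.elim (fl D y) (Sum.elim 0 y)))).comp (ioT D) =
      (aeval (Sum.elim x (Sum.elim (fl D y) y)) : AT D →ₐ[ℂ] K) := by
    apply MvPolynomial.algHom_ext
    rintro (b | a | j)
    all_goals simp only [ioT, AlgHom.comp_apply, aeval_X, Sum.elim_inl, Sum.elim_inr]
  exact DFunLike.congr_fun h g

/-- `kerM` is the kernel of the theory -/
theorem kerM_eq : kerM D x y = Vale.Agent.P291.H.M.kerJ (tG D) x y := by
  rw [kerJ_eq, kerM_def]
  ext z
  constructor
  · rintro ⟨g, h1, h2, h3⟩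
    refine ⟨ioT D g, fun σ => ?_, ?_, ?_⟩
    · rw [← ioT_act, h1 σ]
    · have h4 := cut_map D (ioT D : AT D →+* PT D) _ _ h2
      rw [map_mul, disc_map] at h4
      have e1 : ((ioT D : AT D →+* PT D) ∘ fun b => (X (.inl b) : AT D)) =
          fun b => xT D (.inl b) := by
        funext b
        exact aeval_X _ _
      have e2 : ((ioT D : AT D →+* PT D) ∘ fun a => (X (.inr (.inl a)) : AT D)) =
          fun a => xT D (.inr (.inl a)) := by
        funext b
        exact aeval_X _ _
      rw [e1, e2] at h4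
      exact h4
    · rw [ioT_val, h3]
  · rintro ⟨g, h1, h2, h3⟩
    refine ⟨piT D g, fun σ => ?_, ?_, ?_⟩
    · rw [← piT_act, h1 σ]
    · have h4 := cut_map D (piT D : PT D →+* AT D) _ _ h2
      rw [map_mul, disc_map] at h4
      have e1 : ((piT D : PT D →+* AT D) ∘ fun b => xT D (.inl b)) =
          fun b => (X (.inl b) : AT D) := by
        funext b
        exact aeval_X _ _
      have e2 : ((piT D : PT D →+* AT D) ∘ fun a => xT D (.inr (.inl a))) =
          fun a => (X (.inr (.inl a)) : AT D) := by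
        funext b
        exact aeval_X _ _
      rw [e1, e2] at h4
      exact h4
    · rw [← piT_val, h3]

lemma reg_one : Reg D 1 := by
  intro n₀ s hv hs hn
  exfalso
  obtain ⟨n, hns⟩ := List.exists_mem_of_ne_nil s hs
  obtain ⟨h1, h2, -⟩ := hn n hns
  apply h1
  funext i
  have h3 : ∑ i, (n i : ℤ) = 0 := by
    rw [← h2]
    exact Finset.sum_congr rfl fun i _ => by rw [Pi.one_apply, one_mul]
  have h4 := (Finset.sum_eq_zero_iff_of_nonneg fun i _ => Int.natCast_nonneg (n i)).1 h3 i
    (Finset.mem_univ i)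
  exact_mod_cast h4

variable (hxy : AlgebraicIndependent ℂ (Sum.elim x y))
    (hu : ∀ l l', u (l + l') = u l * u l') (hi : LinearIndependent K u)
    (hs : Submodule.span K (Set.range u) = ⊤)

include hxy hu hi hs

theorem fixI_le_of_surj (ν ν' : D.I → ℤ)
    (hsj : ∀ a ∈ coulomb D x y u, ∃ r ∈ R D x y, a - algebraMap K L r ∈ fixI D x y u ν) :
    fixI D x y u ν' ≤ fixI D x y u ν := by
  have hb : ∀ l, Module.Basis.mk hi hs.ge l = u l := fun l => Module.Basis.mk_apply hi hs.ge l
  have hb' : (Module.Basis.mk hi hs.ge : (B D → ℤ) → L) = u := funext hb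
  have hu' : ∀ l l', Module.Basis.mk hi hs.ge (l + l') =
      Module.Basis.mk hi hs.ge l * Module.Basis.mk hi hs.ge l' :=
    fun l l' => by rw [hb, hb, hb]; exact hu l l'
  have h1 := Vale.Agent.P291.H.M.fixI_le (tG D) x y (Module.Basis.mk hi hs.ge) hu' ν ν'
  have e : ((Module.Basis.mk hi hs.ge : Module.Basis (B D → ℤ) K L) :
      (Vale.Agent.P291.G.B (tG D) → ℤ) → L) = u := hb'
  rw [e] at h1
  rw [coulomb_eq, fixI_eq, R_eq] at hsj
  rw [fixI_eq, fixI_eq]
  exact h1 hsj

/-- the presentation without `ħ` -/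
theorem kerH_iff_kerM {r : K} (hr : r ∈ R D x y) : r ∈ kerH D x y 1 ↔ r ∈ kerM D x y := by
  have hb : ∀ l, Module.Basis.mk hi hs.ge l = u l := fun l => Module.Basis.mk_apply hi hs.ge l
  have hb' : (Module.Basis.mk hi hs.ge : (B D → ℤ) → L) = u := funext hb
  have hu' : ∀ l l', Module.Basis.mk hi hs.ge (l + l') =
      Module.Basis.mk hi hs.ge l * Module.Basis.mk hi hs.ge l' :=
    fun l l' => by rw [hb, hb, hb]; exact hu l l'
  have h4 := fun {r : K} (hr : r ∈ Vale.Agent.P291.G.R (tG D) x y) =>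
    Vale.Agent.P291.H.M.ker_iff (tG D) x y (Module.Basis.mk hi hs.ge) hxy hu' (fun _ => 1)
      (Vale.Agent.P291.H.M.wt_one_ne (tG D)) hr
  have e : ((Module.Basis.mk hi hs.ge : Module.Basis (B D → ℤ) K L) :
      (Vale.Agent.P291.G.B (tG D) → ℤ) → L) = u := hb'
  rw [e] at h4
  have h5 := (main D x y u 1 hxy hu hi hs (reg_one D)).2 r hr
  rw [fixI_eq] at h5
  rw [kerM_eq, ← h5]
  exact h4 hr

/-- the presentation without `ħ`, for all chambers `ν' > 0`, `ν' < 0` -/
theorem kerH_iff_kerM' (ν' : D.I → ℤ) (hν : (∀ i, 0 < ν' i) ∨ ∀ i, ν' i < 0) {r : K}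
    (hr : r ∈ R D x y) : r ∈ kerH D x y ν' ↔ r ∈ kerM D x y := by
  have h1 : ∀ l, Min D l → l ≠ 0 → wt D 1 l ≠ 0 := wt_ne_of_sign D (Or.inl fun _ => one_pos)
  have h := (mainGen D x y u hxy hu hi hs 1 h1).2
  rw [← h ν' hν r hr, h 1 (Or.inl fun _ => one_pos) r hr]
  exact kerH_iff_kerM D x y u hxy hu hi hs hr

/-- every character -/
theorem every (ν : D.I → ℤ) :
    fixI D x y u ν ≤ fixI D x y u 1 ∧
    (∀ r ∈ R D x y, algebraMap K L r ∈ fixI D x y u ν → r ∈ kerH D x y 1) ∧
    ((∀ a ∈ coulomb D x y u, ∃ r ∈ R D x y, a - algebraMap K L r ∈ fixI D x y u ν) →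
      fixI D x y u ν = fixI D x y u 1 ∧
      ∀ r ∈ R D x y, algebraMap K L r ∈ fixI D x y u ν ↔ r ∈ kerH D x y 1) := by
  have h1 := main D x y u 1 hxy hu hi hs (reg_one D)
  have h2 := fixI_le_of_surj D x y u hxy hu hi hs 1 ν h1.1
  refine ⟨h2, fun r hr h => (h1.2 r hr).1 (h2 h), fun h => ?_⟩
  have h3 := le_antisymm h2 (fixI_le_of_surj D x y u hxy hu hi hs ν 1 h)
  exact ⟨h3, fun r hr => by rw [h3]; exact h1.2 r hr⟩

end

end Vale.Agent.P291.Q
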